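import Vale.Agent.P011UGB1.Mt
import Vale.Agent.P011NC.Main
import Vale.Agent.P011U.Top

/-!
Forms of the special linear group whose algebra has a nontrivial idempotent.
-/

set_option autoImplicit false
set_option linter.all false

open Matrix TensorProduct

namespace Vale.Agent.P011UGB1

open Vale.Agent.P011L Vale.Agent.P011LT Vale.Agent.P011LB Vale.Agent.P011.H925

variable {k K : Type} [Field k] [Field K] [Algebra k K] {n : ℕ}

/-- the element of the special linear group of a unitary pair -/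
def mu (x : BB n K) (h1 : x * st x = 1) (h2 : x.1.det = 1) : SA K n :=
  ⟨⟨x.1, x.2ᵀ, congrArg Prod.fst h1, mul_eq_one_comm.1 (congrArg Prod.fst h1)⟩, mem_SA.2 h2⟩

theorem t0_mk (x : BB n K) (h1 : x * st x = 1) (h2 : x.1.det = 1) : t0 (mu x h1 h2) = x := rfl

theorem t0_inj {g h : SA K n} (e : t0 g = t0 h) : g = h := th_inj _ (congrArg Prod.fst e)

variable {A : Type} [Ring A] [StarRing A] [Algebra k A] {p : (K ≃ₐ[k] K) → BB n K →+* BB n K}
  (M : Mt k p A) [NeZero n] {T : Tw k (SA K n)} (h : ∀ σ, Ex T σ (p σ))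

namespace Mt

include M h in
theorem aniso [Infinite K] (an : T.Ani) (x : A) (hx : star x * x = 0) : x = 0 := by
  by_contra h0
  haveI := M.simple
  obtain ⟨C, _, _, _, _, _, _, _⟩ := exists_ctr k A
  haveI : Module.Finite C A := Module.finite_of_finrank_pos (M.rank C ▸ pow_pos (NeZero.pos n) 2)
  haveI := IsArtinianRing.of_finite C A
  obtain ⟨z, hz⟩ := M.star_ne C
  obtain ⟨u, u0, u1, u2, u3⟩ := exists_idem hz hx h0
  have u4 : star u * star u = star u := by rw [← star_mul, u1]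
  obtain ⟨U, hU⟩ : ∃ U, U = M.j u := ⟨_, rfl⟩
  obtain ⟨V, hV⟩ : ∃ V, V = M.j (star u) := ⟨_, rfl⟩
  have v1 : U * U = U := by rw [hU, ← map_mul, u1]
  have v2 : U * V = 0 := by rw [hU, hV, ← map_mul, u2, map_zero]
  have v3 : V * U = 0 := by rw [hU, hV, ← map_mul, u3, map_zero]
  have v4 : V * V = V := by rw [hV, ← map_mul, u4]
  have v5 : V = P011LB.st U := by rw [hU, hV, M.st]
  have v6 : ∀ σ, p σ U = U := hU ▸ (M.mem _).1 ⟨_, rfl⟩
  have v7 : ∀ σ, p σ V = V := hV ▸ (M.mem _).1 ⟨_, rfl⟩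
  let l : Kˣ →* BB n K :=
    { toFun := fun t => pw 1 t • U + pw (-1) t • V + (1 - U - V)
      map_one' := by simp [pw]
      map_mul' := fun s t => by
        simp only [pw_mul, mul_add, add_mul, mul_sub, sub_mul, smul_mul_assoc, mul_smul_comm, v1, v2,
          v3, v4, mul_one, one_mul, smul_smul, smul_zero, smul_sub, smul_add, mul_comm (pw _ t)]
        abel }
  have l0 : ∀ t, l t = pw 1 t • U + pw (-1) t • V + (1 - U - V) := fun _ => rfl
  have l1 : ∀ t, P011LB.st (l t) = l t⁻¹ := fun t => by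
    rw [l0, l0, v5]
    refine Prod.ext ?_ ?_ <;> simp [P011LB.st, pw] <;> abel
  have l2 : (l : Kˣ → BB n K) ∈ PV (cA K) (BB n K) :=
    pv_add (pv_add (pv_gen (pw_mem 1) _) (pv_gen (pw_mem (-1)) _)) (pv_const _)
  have l3 : ∀ σ t, p σ (l t) = l (Units.map (σ : K →* K) t) := fun σ t => by
    rw [l0, l0]
    simp [(h σ).smul, v6, v7, pw]
  let f : BB n K →ₐ[K] Mn n K := AlgHom.fst K _ _
  obtain ⟨r, hr⟩ := scal (L := K) (M := K) (fun _ a => a.isUnit)
    (detMonoidHom.comp (f.toMonoidHom.comp l)) (pv_det (pv_map f.toLinearMap l2))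
  change ∀ t, (l t).1.det = pw r t at hr
  obtain ⟨σ, s, hs⟩ := M.out
  have r0 : r = 0 := by
    refine (mul_eq_zero.1 (P011LA.zpow_inj (K := K) (m := 2 * r) fun t => Units.ext ?_)).resolve_left
      two_ne_zero
    have h1 := congrArg det (hs (l t))
    rw [det_mul, det_mul, mul_comm, mul_right_inj' s.det_ne_zero, ← det_transpose (Matrix.map _ _),
      ← transpose_map, show (l t).2ᵀ = (l t⁻¹).1 by rw [← l1]; rfl, l3, hr] at h1
    have h2 := h1.trans ((σ.toAlgHom.map_det (l t⁻¹).1).symm.trans (congrArg σ (hr t⁻¹)))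
    have h3 : pw r t = pw r t⁻¹ := σ.injective (Eq.trans (by simp [pw]) h2)
    rw [two_mul, _root_.zpow_add, Units.val_mul]
    show pw r t * pw r t = _
    nth_rewrite 2 [h3]
    rw [← pw_mul, mul_inv_cancel, pw, _root_.one_zpow]
  have d0 : ∀ t, l t * P011LB.st (l t) = 1 := fun t => by
    rw [l1, ← map_mul, mul_inv_cancel, map_one]
  have d1 : ∀ t, (l t).1.det = 1 := fun t => by rw [hr, r0, pw, zpow_zero, Units.val_one]
  obtain ⟨c, y, hc⟩ := diag (f.toMonoidHom.comp l) (pv_map f.toLinearMap l2)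
  obtain rfl := an c y (fun t => mu _ (d0 t) (d1 t)) hc fun σ t => t0_inj (by
    rw [← (h σ).th, t0_mk, t0_mk, l3])
  refine one_ne_zero (P011LA.zpow_inj (K := K) (m := 1) fun t => Units.ext ?_)
  have h1 : (l t).1 = 1 := c.isUnit.mul_right_cancel ((hc t).trans (by simp [pw]))
  have h2 : (l t * U).1 = (pw 1 t • U).1 := by simp [l0, add_mul, sub_mul, v1, v3]
  rw [Prod.fst_mul, h1, one_mul] at h2
  refine smul_left_injective K (m := U.1) (fun e => u0 (M.eq0 (.inl (hU ▸ e)))) ?_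
  exact h2.symm.trans (one_smul _ _).symm

include M h in
theorem ps [Infinite K] (hk : Glob k) (hn : 3 ≤ n) (an : T.Ani) {x y : BB n K} (x0 : x ≠ 0)
    (y0 : y ≠ 0) (xy : x * y = 0) (hx : ∀ σ, p σ x = x) (hy : ∀ σ, p σ y = y) : PSimple T.fix := by
  haveI := M.simple
  obtain ⟨C, _, _, _, _, _, _, hC⟩ := exists_ctr k A
  letI := (M.kap C).toRingHom.toAlgebra
  obtain ⟨δ, -, -, d2⟩ := P011NC.clauseA_all (k := k)
    ⟨hk, M.fixed, M.star_ne C, hC, M.simple, hn, M.rank C, M.aniso h an⟩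
    (M.sp (C := C) fun _ => rfl)
  obtain ⟨a, rfl⟩ := (M.mem x).2 hx
  obtain ⟨b, rfl⟩ := (M.mem y).2 hy
  have e0 : IsEmpty (Full.AG k C A) := ⟨fun w => by
    obtain ⟨r, hr⟩ := w.div
    letI : Algebra C w.abv.Completion := (r : C →+* Full.Kv w.abv).toAlgebra
    let i : A →ₐ[C] w.abv.Completion ⊗[C] A := Algebra.TensorProduct.includeRight
    have i1 : Function.Injective i :=
      Algebra.TensorProduct.includeRight_injective (algebraMap C _).injective
    have i2 : IsUnit (i a) := hr _ fun e => x0 (by rw [i1 (e.trans (map_zero i).symm), map_zero])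
    refine y0 ?_
    have i3 : i a * i b = 0 := by
      rw [← map_mul, M.inj ((map_mul M.j a b).trans (xy.trans (map_zero _).symm)), map_zero]
    rw [i1 ((i2.mul_right_eq_zero.1 i3).trans (map_zero i).symm), map_zero]⟩
  have q : ∀ u : unitary A, M.j u * P011LB.st (M.j u) = 1 := fun u => by
    rw [← M.st, ← map_mul, u.2.2, map_one]
  let ζ : Full.GK (M.sp (C := C) fun _ => rfl) →* T.fix :=
    { toFun := fun u => ⟨mu _ (q u.1) u.2, fun σ => t0_inj
        (((h σ).th _).symm.trans ((M.mem _).1 ⟨_, rfl⟩ σ))⟩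
      map_one' := Subtype.ext (t0_inj ((map_one M.j).trans (map_one t0).symm))
      map_mul' := fun u v => Subtype.ext (t0_inj ((map_mul M.j u.1.1 v.1.1).trans
        (map_mul t0 (mu _ (q u.1) u.2) (mu _ (q v.1) v.2)).symm)) }
  refine PSimple.congr (MulEquiv.ofBijective ζ ⟨fun u v e => Subtype.ext (Subtype.ext
    (M.inj (congrArg (fun g : T.fix => t0 g.1) e))), fun g => ?_⟩).symm fun N h1 h2 => ?_
  · obtain ⟨u, hu⟩ := (M.mem (t0 g.1)).2 fun σ => by rw [(h σ).th, g.2 σ]
    refine ⟨⟨⟨u, M.inj ?_, M.inj ?_⟩, (congrArg (fun x : BB n K => x.1.det) hu).trans (mem_SA.1 g.1.2)⟩,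
      Subtype.ext (t0_inj hu)⟩
    · rw [map_mul, M.st, hu, ← th_inv, ← map_mul, inv_mul_cancel, map_one, map_one]
    · rw [map_mul, M.st, hu, ← th_inv, ← map_mul, mul_inv_cancel, map_one, map_one]
  · obtain ⟨W, -, -, w⟩ := d2 N h1 h2
    rw [w]
    exact eq_top_iff.2 fun g _ => Subgroup.mem_comap.2
      ((funext e0.elim : δ g = 1) ▸ W.one_mem)

end Mt

/-- the root vector -/
def E (i j : Fin n) : BB n K := (single i j 1, -single j i 1)

omit [NeZero n] in
theorem t0_tv {i j : Fin n} (a : i ≠ j) {g : SA K n} {c : K} (e : g.1.1 = 1 + single i j c) :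
    t0 g = 1 + c • E i j := by
  refine Prod.ext (e.trans (by simp [E])) ?_
  have : (g.1⁻¹).1 = 1 - single i j c := Units.inv_eq_of_mul_eq_one_right (by
    rw [e, add_mul, mul_sub, mul_sub, single_mul_single_of_ne _ _ _ _ a.symm]; simp)
  show (g.1⁻¹).1ᵀ = _
  rw [this]
  simp [E, sub_eq_add_neg]

theorem ps_sa [IsSepClosure k K] (hk : Glob k) (hn : 3 ≤ n) (T : Tw k (SA K n)) (an : T.Ani)
    {i j : Fin n} (a : i ≠ j) {X Y : SA K n} (hX : X.1.1 = 1 + single i j 1)
    (hY : Y.1.1 = 1 + single j i 1) (hT : ∀ σ, ∃ c : Kˣ,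
      (T.a σ X).1.1 = 1 + single i j c.1 ∧ (T.a σ Y).1.1 = 1 + single j i (c⁻¹).1 ∨
      (T.a σ X).1.1 = 1 + single j i c.1 ∧ (T.a σ Y).1.1 = 1 + single i j (c⁻¹).1) :
    PSimple T.fix := by
  haveI := P011U.Glob.inf hk
  haveI : Infinite K := .of_injective _ (algebraMap k K).injective
  choose p h using exists_p hn T
  let P : Mn n K := diagonal fun l => if l = i ∨ l = j then 1 else 0
  have e1 : (E i j * E j i + E j i * E i j : BB n K) = (P, P) := by
    refine Prod.ext ?_ ?_ <;> ext b c <;> simp [E, P, single_apply, diagonal_apply] <;> grind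
  have e2 : ∀ σ, p σ (P, P) = (P, P) := fun σ => by
    have b1 := (h σ).th X
    have b2 := (h σ).th Y
    rw [t0_tv a hX, one_smul, map_add, map_one] at b1
    rw [t0_tv a.symm hY, one_smul, map_add, map_one] at b2
    rw [← e1, map_add, map_mul, map_mul]
    obtain ⟨c, ⟨c1, c2⟩ | ⟨c1, c2⟩⟩ := hT σ
    · rw [t0_tv a c1, add_right_inj] at b1
      rw [t0_tv a.symm c2, add_right_inj] at b2
      simp [b1, b2, smul_smul]
    · rw [t0_tv a.symm c1, add_right_inj] at b1
      rw [t0_tv a c2, add_right_inj] at b2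
      simp [b1, b2, smul_smul, add_comm]
  obtain ⟨m, m1, m2⟩ := Fin.exists_ne_and_ne_of_two_lt i j (by omega)
  by_cases ho : ∃ (σ : K ≃ₐ[k] K) (s : GL (Fin n) K), ∀ x, (p σ x).1 * s.1 = s.1 * x.2.map σ
  · obtain ⟨A, _, _, _, ⟨M⟩⟩ := exists_mt hn h ho
    refine M.ps h hk hn an (x := (P, P)) (y := 1 - (P, P)) (fun e => ?_) (fun e => ?_) ?_ e2
      fun σ => by rw [map_sub, map_one, e2]
    · simpa [P] using congrArg (·.1 i i) e
    · simpa [P, m1, m2] using congrArg (·.1 m m) e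
    · refine Prod.ext ?_ ?_ <;> simp [P, mul_sub] <;> ext l <;> split_ifs <;> simp
  have e3 : ∀ σ, p σ (1, 0) = (1, 0) := fun σ => (h σ).dich.resolve_right fun e => ho ⟨σ, e⟩
  let y : Fin n → ℤ := fun l => (if l = i ∨ l = j then n else 0) - 2
  let L : Kˣ → BB n K := fun t => (diagonal fun l => pw (y l) t, diagonal fun l => pw (-y l) t)
  have L0 : ∀ t, L t = pw (n - 2) t • ((P, P) * (1, 0)) + pw (-2) t • ((1 - (P, P)) * (1, 0)) +
      pw (-(n - 2)) t • ((P, P) * (1 - (1, 0))) + pw (- -2) t • ((1 - (P, P)) * (1 - (1, 0))) :=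
    fun t => by
      refine Prod.ext ?_ ?_ <;> ext b c <;> simp [L, P, y, diagonal_apply, one_apply] <;>
        split_ifs <;> simp_all
  have L1 : ∀ t, L t * st (L t) = 1 := fun t => by
    refine Prod.ext ?_ ?_ <;> simp [L, st, pw] <;> ext l <;> simp [zpow_ne_zero]
  have L2 : ∀ t, (L t).1.det = 1 := fun t => by
    have : ∑ l, y l = 0 := by
      have : ∀ l, (if l = i ∨ l = j then n else 0 : ℤ) =
          (if l = i then n else 0) + if l = j then n else 0 := fun l => by grind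
      simp [y, this, Finset.sum_add_distrib]
      ring
    simp only [L, det_diagonal, pw]
    rw [← Units.coe_prod]
    have e : ∏ l, t ^ y l = 1 :=
      (map_prod (zpowersHom Kˣ t) (fun l => .ofAdd (y l)) _).symm.trans (by
        rw [← ofAdd_sum, this]
        exact map_one _)
    rw [e, Units.val_one]
  have := congrFun (an 1 y (fun t => mu _ (L1 t) (L2 t)) (fun t => by simp [mu, L, pw])
    fun σ t => t0_inj (by
      rw [← (h σ).th, t0_mk, t0_mk, L0, L0]
      simp only [map_add, (h σ).smul, map_mul, map_sub, map_one, e2, e3, pw]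
      simp)) m
  simp [y, m1, m2] at this

end Vale.Agent.P011UGB1
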