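import Vale.Agent.P011UGB1.Su
import Vale.Agent.P011UGA.IF
import Vale.Agent.P011UI.Exa

/-!
The base cases of type `A`.
-/

set_option autoImplicit false
set_option linter.all false

open Matrix

namespace Vale.Agent.P011UGB1

open Vale.Agent.P011L Vale.Agent.P011LT Vale.Agent.P011U Vale.Agent.P011UGA Vale.Agent.P183CH

/-- Type `A` of rank at least two with a fixed node. -/
theorem ps_a (ia : IA) : AllP fun _ _ _ _ _ D T _ π _ => ∀ n e, Ty D.R (CartanMatrix.A n) e →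
    2 ≤ n → (∃ i, ∀ σ, π σ i = i) → PSimple T.fix := by
  rintro k K _ _ _ _ D hk hD T ε π d ho n e he hn ⟨i, hi⟩
  obtain ⟨ψ, h1, h2, h3⟩ := P011UI.isa D hD n e he K
  obtain ⟨f⟩ := (P011UC.eqv_tr T ψ h1 h2).fix
  refine PSimple.congr f ?_
  by_cases an : (P011UC.tr T ψ h1 h2).Ani
  swap
  · exact ia k K _ hk (by omega) _ an
  refine ps_sa hk (by omega) _ an (Fin.castSucc_lt_succ (i := e i)).ne (h3 i 1).1 (h3 i 1).2
    fun σ => ?_
  simp only [P011UC.tr_a, MulEquiv.symm_apply_apply]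
  rcases Int.units_eq_one_or (ε σ) with a | a
  · refine ⟨1, .inl ?_⟩
    rw [(ho.pos σ i 1 a).1, (ho.pos σ i 1 a).2, hi, map_one]
    exact h3 i 1
  · refine ⟨d i, .inr ?_⟩
    rw [(ho.neg σ i 1 a).1, (ho.neg σ i 1 a).2, hi, map_one, mul_one, mul_one]
    exact ⟨(h3 i _).2, (h3 i _).1⟩

theorem ba2 (ia : IA) : BA2 := fun k K _ _ _ _ D hk hD T ε π d ho ⟨e, he⟩ h =>
  ps_a ia k K D hk hD T ε π d ho 2 e he le_rfl ⟨e.symm 0, fun σ => by rw [h]; rfl⟩

theorem ba3 (ia : IA) : BA3 := fun k K _ _ _ _ D hk hD T ε π d ho ⟨e, he⟩ =>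
  ps_a ia k K D hk hD T ε π d ho 3 e he (by omega) ⟨e.symm 1, fun σ => e.injective (by
    have : ∀ a b c : Fin 3, CartanMatrix.A 3 a b = CartanMatrix.A 3 0 1 →
        CartanMatrix.A 3 b c = CartanMatrix.A 3 1 2 → CartanMatrix.A 3 a c = CartanMatrix.A 3 0 2 →
        b = 1 := fun a b c => by
      fin_cases a <;> fin_cases b <;> fin_cases c <;> simp [CartanMatrix.A]
    have h : ∀ i j, CartanMatrix.A 3 (e (π σ (e.symm i))) (e (π σ (e.symm j))) =
        CartanMatrix.A 3 i j := fun i j => by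
      rw [← he, ho.dg, he, e.apply_symm_apply, e.apply_symm_apply]
    rw [e.apply_symm_apply]
    exact this _ _ _ (h 0 1) (h 1 2) (h 0 2))⟩

end Vale.Agent.P011UGB1
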