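import Vale.Agent.P011LB.Ani
import Vale.Agent.P011LA.A1
import Vale.Agent.P011LD.Desc
import Vale.Agent.P011UC.Tr

/-!
The algebra with involution of a twisted action on the special linear group.
-/

set_option autoImplicit false
set_option linter.all false

open Matrix TensorProduct

namespace Vale.Agent.P011UGB1

open Vale.Agent.P011L Vale.Agent.P011LT Vale.Agent.P011LB

variable {k K : Type} [Field k] [Field K] [Algebra k K] {n : ℕ}

/-- the representation and its dual -/
abbrev t0 : SA K n →* BB n K := th (MulEquiv.refl _)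

/-- `p` extends the action of `σ` -/
structure Ex (T : Tw k (SA K n)) (σ : K ≃ₐ[k] K) (p : BB n K →+* BB n K) : Prop where
  smul : ∀ (c : K) x, p (c • x) = σ c • p x
  st : ∀ x, p (st x) = st (p x)
  th : ∀ g, p (t0 g) = t0 (T.a σ g)
  dich : p (1, 0) = (1, 0) ∨ ∃ s : GL (Fin n) K, ∀ x, (p x).1 * s.1 = s.1 * x.2.map σ

theorem exists_p [IsSepClosure k K] (hn : 3 ≤ n) (T : Tw k (SA K n)) (σ : K ≃ₐ[k] K) :
    ∃ p, Ex T σ p := by
  haveI := IsSepClosure.sep_closed k (K := K)
  have a1 : P011UC.SP σ⁻¹ (gE (stab_SA k n) σ).symm := P011UC.SP.of_map fun _ => rfl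
  have a2 : P011UC.SP σ (gE (stab_SA k n) σ) := P011UC.SP.of_map fun _ => rfl
  have a3 := P011UC.SP.comp (T.pol σ) a1
  have a4 := P011UC.SP.comp a2 (T.pol σ⁻¹)
  rw [mul_inv_cancel] at a3 a4
  obtain ⟨s, hs⟩ := P011LA.a1 K n hn ((gE (stab_SA k n) σ).symm.trans (T.a σ))
    ((P011UC.sp_one k).1 a3) ((P011UC.sp_one k).1 (by rw [map_inv] at a4; exact a4))
  have k1 : ∀ p : BB n K →+* BB n K, (∀ x, p (st x) = st (p x)) →
      (∀ g, (p (t0 g)).1 * s.1 = (t0 (T.a σ g)).1 * s.1) → ∀ g, p (t0 g) = t0 (T.a σ g) :=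
    fun p a b g => by
      refine Prod.ext (s.isUnit.mul_right_cancel (b g)) (transpose_injective ?_)
      have := s.isUnit.mul_right_cancel (b g⁻¹)
      rwa [map_inv (T.a σ), th_inv, th_inv, a] at this
  have k2 : ∀ g, ((gE (stab_SA k n) σ).symm.trans (T.a σ)) (gE (stab_SA k n) σ g) = T.a σ g :=
    fun g => by rw [MulEquiv.trans_apply, MulEquiv.symm_apply_apply]
  have k3 : ∀ x, (cj s σ).prodMap (cj (ti s) σ) (st x) = st ((cj s σ).prodMap (cj (ti s) σ) x) :=
    fun x => Prod.ext (transpose_injective (cj_tr s σ x.2ᵀ).symm) (cj_tr s σ x.1)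
  rcases hs with hs | hs
  · refine ⟨(cj s σ).prodMap (cj (ti s) σ), fun c x => Prod.ext (cj_smul _ _ _ _) (cj_smul _ _ _ _),
      k3, k1 _ k3 fun g => (cj_mul _ _ _).trans ?_, 
      .inl (Prod.ext (map_one (cj s σ)) (map_zero (cj (ti s) σ)))⟩
    have := hs (gE (stab_SA k n) σ g)
    rw [k2] at this
    exact this.symm
  · let p : BB n K →+* BB n K := ((cj s σ).comp (.snd _ _)).prod ((cj (ti s) σ).comp (.fst _ _))
    have k4 : ∀ x, p (st x) = st (p x) := fun x => k3 x.swap
    refine ⟨p, fun c x => Prod.ext (cj_smul s σ c x.2) (cj_smul (ti s) σ c x.1), k4,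
      k1 _ k4 fun g => (cj_mul s σ (t0 g).2).trans ?_, .inr ⟨s, fun x => cj_mul s σ x.2⟩⟩
    have := hs (gE (stab_SA k n) σ g)
    rw [k2, ← map_inv] at this
    exact this.symm

theorem ext_p (hn : 3 ≤ n) {p q : BB n K →+* BB n K} {σ : K → K}
    (hp : ∀ (c : K) x, p (c • x) = σ c • p x) (hq : ∀ (c : K) x, q (c • x) = σ c • q x)
    (h : ∀ g, p (t0 g) = q (t0 g)) (x : BB n K) : p x = q x :=
  span_th hn (MulEquiv.refl _)
    { carrier := {x | p x = q x}
      mul_mem' := fun {a b} (c : p a = q a) (d : p b = q b) => show p _ = q _ by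
        rw [map_mul, map_mul, c, d]
      add_mem' := fun {a b} (c : p a = q a) (d : p b = q b) => show p _ = q _ by
        rw [map_add, map_add, c, d]
      algebraMap_mem' := fun c => show p _ = q _ by
        rw [Algebra.algebraMap_eq_smul_one, hp, hq, map_one, map_one] } h x

variable (k) in
/-- the algebra with involution of the action `p` -/
structure Mt (p : (K ≃ₐ[k] K) → BB n K →+* BB n K) (A : Type) [Ring A] [StarRing A]
    [Algebra k A] where
  j : A →ₐ[k] BB n K
  st : ∀ a, j (star a) = st (j a)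
  bij : Function.Bijective (lf j : K ⊗[k] A →ₐ[K] BB n K)
  out : ∃ (σ : K ≃ₐ[k] K) (s : GL (Fin n) K), ∀ x, (p σ x).1 * s.1 = s.1 * x.2.map σ
  mem : ∀ x, (∃ a, j a = x) ↔ ∀ σ, p σ x = x

theorem exists_mt [IsSepClosure k K] (hn : 3 ≤ n) {T : Tw k (SA K n)}
    {p : (K ≃ₐ[k] K) → BB n K →+* BB n K} (h : ∀ σ, Ex T σ (p σ))
    (ho : ∃ (σ : K ≃ₐ[k] K) (s : GL (Fin n) K), ∀ x, (p σ x).1 * s.1 = s.1 * x.2.map σ) :
    ∃ (A : Type) (_ : Ring A) (_ : StarRing A) (_ : Algebra k A), Nonempty (Mt k p A) := by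
  let A : Subalgebra k (BB n K) :=
    { carrier := {x | ∀ σ, p σ x = x}
      mul_mem' := fun a b σ => by rw [map_mul, a σ, b σ]
      add_mem' := fun a b σ => by rw [map_add, a σ, b σ]
      algebraMap_mem' := fun c σ => by
        rw [IsScalarTower.algebraMap_apply k K, Algebra.algebraMap_eq_smul_one, (h σ).smul, map_one,
          AlgEquiv.commutes] }
  letI : StarRing A :=
    { star := fun x => ⟨st x.1, fun σ => by rw [(h σ).st, x.2 σ]⟩
      star_involutive := fun x => rfl
      star_mul := fun x y => Subtype.ext (Prod.ext (transpose_mul _ _) (transpose_mul _ _))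
      star_add := fun x y => rfl }
  refine ⟨A, _, inferInstance, _, ⟨A.val, fun _ => rfl, ⟨?_, fun x => ?_⟩, ho,
    fun x => ⟨fun ⟨a, e⟩ => e ▸ a.2, fun e => ⟨⟨x, e⟩, rfl⟩⟩⟩⟩
  · classical
    let b := Module.Basis.ofVectorSpace k A
    have b1 : LinearIndependent K (A.val ∘ b) := ind (fun σ => (p σ).toAddMonoidHom)
      (fun σ => (h σ).smul) (fun σ i => (b i).2 σ) (b.linearIndependent.map' A.val.toLinearMap
        (LinearMap.ker_eq_bot.2 Subtype.val_injective))
    refine (injective_iff_map_eq_zero _).2 fun T hT => ?_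
    obtain ⟨c, rfl⟩ := TensorProduct.eq_repr_basis_right b T
    rw [map_finsuppSum] at hT
    simp only [lf_tmul] at hT
    rw [linearIndependent_iff.1 b1 c hT, Finsupp.sum_zero_index]
  · have sl : P011LD.Sl (⊤ : Subgroup (K ≃ₐ[k] K)) fun σ x => p σ x :=
      ⟨fun σ _ => map_add _, fun σ _ => (h σ).smul, fun σ _ τ _ =>
        ext_p hn (q := (p σ).comp (p τ)) (h _).smul
          (fun c x => by rw [RingHom.comp_apply, (h τ).smul, (h σ).smul]; rfl) fun g => by
          rw [RingHom.comp_apply, (h τ).th, (h σ).th, (h _).th, map_mul]; rfl, fun v => by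
        classical
        obtain ⟨F, hF, h2⟩ := T.cont
        let b := Module.finBasis k F
        refine ⟨Finset.univ.image (fun i => (b i).1) ∪ Finset.univ.image (fun e : Fin n × Fin n =>
          v.1 e.1 e.2) ∪ Finset.univ.image (fun e : Fin n × Fin n => v.2 e.1 e.2),
          fun σ _ e => ?_⟩
        have h3 : ∀ x ∈ F, σ x = x := fun x hx => by
          have := congrArg F.val (b.sum_repr ⟨x, hx⟩)
          rw [map_sum] at this
          simp only [map_smul] at this
          rw [show x = _ from this.symm, map_sum]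
          refine Finset.sum_congr rfl fun i _ => ?_
          rw [map_smul]
          exact congrArg _ (e _ (by simp))
        let q : BB n K →+* BB n K := (σ : K →+* K).mapMatrix.prodMap (σ : K →+* K).mapMatrix
        refine (ext_p hn (q := q) (h σ).smul (fun c x => Prod.ext
          (Matrix.ext fun _ _ => map_mul σ _ _) (Matrix.ext fun _ _ => map_mul σ _ _))
          (fun g => ?_) v).trans (Prod.ext (Matrix.ext fun a b => e _ ?_)
            (Matrix.ext fun a b => e _ ?_))
        · rw [(h σ).th]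
          refine Prod.ext (h2 σ h3 g) ?_
          show (T.a σ g)⁻¹.1.1ᵀ = _
          rw [← map_inv, h2 σ h3]
          rfl
        · simp only [Finset.mem_union, Finset.mem_image]
          exact .inl (.inr ⟨(a, b), Finset.mem_univ _, rfl⟩)
        · simp only [Finset.mem_union, Finset.mem_image]
          exact .inr ⟨(a, b), Finset.mem_univ _, rfl⟩⟩
    have hx : x ∈ Submodule.span K _ := sl.span ▸ Submodule.mem_top
    refine (Submodule.span_le (p := (lf A.val).range.toSubmodule)).2 (fun y hy => ?_) hx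
    exact ⟨1 ⊗ₜ ⟨y, fun σ => hy σ trivial⟩, (lf_tmul _ _ _).trans (one_smul _ _)⟩

variable {A : Type} [Ring A] [StarRing A] [Algebra k A] {p : (K ≃ₐ[k] K) → BB n K →+* BB n K}
  (M : Mt k p A)

namespace Mt

theorem out' : ∃ (σ : K ≃ₐ[k] K) (s : GL (Fin n) K), ∀ a, (M.j a).1 * s.1 = s.1 * (M.j a).2.map σ :=
  let ⟨σ, s, e⟩ := M.out
  ⟨σ, s, fun a => by have := e (M.j a); rwa [(M.mem _).1 ⟨a, rfl⟩ σ] at this⟩


theorem inj : Function.Injective M.j := fun a b e =>
  Algebra.TensorProduct.includeRight_injective (algebraMap k K).injective (M.bij.1 (by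
    simpa only [Algebra.TensorProduct.includeRight_apply, lf_tmul, one_smul] using e))

theorem snd0 {a : A} (h : (M.j a).2 = 0) : (M.j a).1 = 0 := by
  obtain ⟨σ, s, e⟩ := M.out'
  exact s.isUnit.mul_right_cancel (by rw [e, h]; simp)

theorem eq0 {a : A} (h : (M.j a).1 = 0 ∨ (M.j a).2 = 0) : a = 0 := by
  refine M.inj ((map_zero M.j).symm ▸ h.elim (fun h => Prod.ext h ?_) fun h => Prod.ext (M.snd0 h) h)
  have := M.snd0 (a := star a) (by rw [M.st]; exact congrArg transpose h)
  rw [M.st] at this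
  exact transpose_injective this

include M in
theorem stsm (c : k) (a : A) : star (c • a) = c • star a :=
  M.inj (by rw [map_smul, M.st, M.st, map_smul]; rfl)

theorem ind {P : BB n K → Prop} (h0 : P 0) (h1 : ∀ x y, P x → P y → P (x + y))
    (h2 : ∀ (c : K) a, P (c • M.j a)) (y : BB n K) : P y := by
  obtain ⟨T, rfl⟩ := M.bij.2 y
  induction T with
  | zero => rwa [map_zero]
  | tmul c a => exact lf_tmul M.j c a ▸ h2 c a
  | add a b c d => exact map_add (lf M.j) a b ▸ h1 _ _ c d

/-- the retractions -/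
noncomputable def rt (π : K →ₗ[k] k) : BB n K →ₗ[k] A :=
  (TensorProduct.lid k A).toLinearMap ∘ₗ π.rTensor A ∘ₗ
    (AlgEquiv.ofBijective _ M.bij).symm.toLinearMap.restrictScalars k

theorem rt_lf (π : K →ₗ[k] k) (T : K ⊗[k] A) :
    M.rt π (lf M.j T) = TensorProduct.lid k A (π.rTensor A T) :=
  congrArg (fun T => TensorProduct.lid k A (π.rTensor A T))
    ((AlgEquiv.ofBijective _ M.bij).symm_apply_apply T)

theorem rt_smul (π : K →ₗ[k] k) (c : K) (a : A) : M.rt π (c • M.j a) = π c • a := by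
  rw [← lf_tmul, rt_lf]
  rfl

theorem rt_zero {y : BB n K} (h : ∀ π, M.rt π y = 0) : y = 0 := by
  classical
  obtain ⟨T, rfl⟩ := M.bij.2 y
  have : T = 0 := (equivFinsuppOfBasisLeft (Module.Basis.ofVectorSpace k K)).injective
    (Finsupp.ext fun i => by rw [equivFinsuppOfBasisLeft_apply, ← M.rt_lf, h, map_zero]; rfl)
  rw [this, map_zero]

theorem rt_left (π : K →ₗ[k] k) (a : A) (y : BB n K) : M.rt π (M.j a * y) = a * M.rt π y :=
  M.ind (P := fun y => M.rt π (M.j a * y) = a * M.rt π y) (by simp)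
    (fun x y b c => by simp only [mul_add, map_add, b, c])
    (fun c b => by rw [mul_smul_comm, ← map_mul, rt_smul, rt_smul, mul_smul_comm]) y

theorem rt_right (π : K →ₗ[k] k) (a : A) (y : BB n K) : M.rt π (y * M.j a) = M.rt π y * a :=
  M.ind (P := fun y => M.rt π (y * M.j a) = M.rt π y * a) (by simp)
    (fun x y b c => by simp only [add_mul, map_add, b, c])
    (fun c b => by rw [smul_mul_assoc, ← map_mul, rt_smul, rt_smul, smul_mul_assoc]) y

theorem rt_st (π : K →ₗ[k] k) (y : BB n K) : M.rt π (P011LB.st y) = star (M.rt π y) :=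
  M.ind (P := fun y => M.rt π (P011LB.st y) = star (M.rt π y))
    ((M.rt π).map_zero.trans (by rw [map_zero, star_zero]))
    (fun x y b c => by rw [map_add, star_add, ← b, ← c, ← map_add]; rfl)
    (fun c b => by rw [rt_smul, M.stsm, ← M.rt_smul π, M.st]; rfl) y

theorem rt_sc (π : K →ₗ[k] k) (c : K) (y : BB n K) :
    M.rt π (c • y) = M.rt (π ∘ₗ LinearMap.mulLeft k c) y :=
  M.ind (P := fun y => M.rt π (c • y) = M.rt (π ∘ₗ LinearMap.mulLeft k c) y) (by simp)
    (fun x y b c => by simp only [smul_add, map_add, b, c])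
    (fun d b => by rw [smul_smul, rt_smul, rt_smul]; rfl) y

theorem rt_one : ∃ π, ∀ a, M.rt π (M.j a) = a := by
  obtain ⟨π, h⟩ := Module.Projective.exists_dual_eq_one k (one_ne_zero : (1 : K) ≠ 0)
  exact ⟨π, fun a => by rw [← one_smul K (M.j a), rt_smul, h, one_smul]⟩

variable [NeZero n]
include M

theorem simple : IsSimpleRing A := by
  haveI : Nontrivial A := M.j.toRingHom.domain_nontrivial
  refine .of_eq_bot_or_eq_top fun I => or_iff_not_imp_left.2 fun h => ?_
  obtain ⟨a, ha, h0⟩ := SetLike.exists_of_lt (bot_lt_iff_ne_bot.2 h)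
  let P : BB n K → Prop := fun y => ∀ π, M.rt π y ∈ I
  have p0 : P 0 := fun π => (M.rt π).map_zero ▸ I.zero_mem
  have pa : ∀ {x y}, P x → P y → P (x + y) := fun a b π =>
    (M.rt π).map_add _ _ ▸ I.add_mem (a π) (b π)
  have pn : ∀ {x}, P x → P (-x) := fun a π => map_neg (M.rt π) _ ▸ I.neg_mem (a π)
  have pl : ∀ x {y}, P y → P (x * y) := fun x y b => M.ind (P := fun x => P (x * y))
    (by rwa [zero_mul]) (fun _ _ c d => by rw [add_mul]; exact pa c d) (fun c d π => by
      rw [smul_mul_assoc, rt_sc, rt_left]; exact I.mul_mem_left _ _ (b _)) x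
  have pr : ∀ {x} y, P x → P (x * y) := fun {x} y b => M.ind (P := fun y => P (x * y))
    (by rwa [mul_zero]) (fun _ _ c d => by rw [mul_add]; exact pa c d) (fun c d π => by
      rw [mul_smul_comm, rt_sc, rt_right]; exact I.mul_mem_right _ _ (b _)) y
  have pj : P (M.j a) := fun π => by
    rw [← one_smul K (M.j a), rt_smul, Algebra.smul_def]
    exact I.mul_mem_left _ _ ha
  have k1 : ∀ l : Mn n K →ₙₐ[K] BB n K, ∀ x ≠ 0, P (l x) → P (l 1) := fun l x a b =>
    (TwoSidedIdeal.mem_mk' _ _ _ _ _ _ _).1 (IsSimpleRing.one_mem_of_ne_zero_mem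
      (TwoSidedIdeal.mk' {x | P (l x)} (by simpa using p0) (fun a b => by simpa using pa a b)
        (fun a => by simpa using pn a) (fun a => by simpa using pl _ a)
        fun a => by simpa using pr _ a) a ((TwoSidedIdeal.mem_mk' _ _ _ _ _ _ _).2 b))
  have k2 := pa (k1 (.inl _ _ _) _ (fun e => h0 (M.eq0 (.inl e)))
    (by simpa [Prod.mul_def] using pr ((1, 0) : BB n K) pj)) (k1 (.inr _ _ _) _ (fun e => h0 (M.eq0 (.inr e)))
    (by simpa [Prod.mul_def] using pr ((0, 1) : BB n K) pj))
  obtain ⟨π, hπ⟩ := M.rt_one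
  rw [← TwoSidedIdeal.one_mem_iff, ← hπ 1, map_one]
  simpa [Prod.one_eq_mk] using k2 π

variable {C : Type} [Field C] [Algebra k C] [StarRing C] [Algebra C A] [IsScalarTower k C A]
  [StarModule C A] [Algebra.IsCentral C A]

theorem cext {c d : C} (h : algebraMap C A c = algebraMap C A d) : c = d :=
  haveI := M.simple
  (algebraMap C A).injective h

omit M [NeZero n] in
theorem cstar (c : C) : algebraMap C A (star c) = star (algebraMap C A c) := by
  rw [Algebra.algebraMap_eq_smul_one, Algebra.algebraMap_eq_smul_one, star_smul, star_one]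

theorem cen (c : C) : ∃ u v : K,
    M.j (algebraMap C A c) = (algebraMap K (Mn n K) u, algebraMap K (Mn n K) v) := by
  have h : ∀ y, y * M.j (algebraMap C A c) = M.j (algebraMap C A c) * y := M.ind (by simp)
    (fun x y a b => by rw [add_mul, mul_add, a, b]) fun d a => by
      rw [smul_mul_assoc, mul_smul_comm, ← map_mul, ← map_mul, Algebra.commutes]
  obtain ⟨u, hu⟩ := (Algebra.IsCentral.mem_center_iff K).1
    (Subalgebra.mem_center_iff.2 fun x => congrArg Prod.fst (h (x, 0)))
  obtain ⟨v, hv⟩ := (Algebra.IsCentral.mem_center_iff K).1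
    (Subalgebra.mem_center_iff.2 fun x => congrArg Prod.snd (h (0, x)))
  exact ⟨u, v, Prod.ext hu hv⟩

theorem fixed (c : C) : star c = c ↔ c ∈ Set.range (algebraMap k C) := by
  refine ⟨fun h => ?_, fun ⟨r, h⟩ => h ▸ M.cext ?_⟩
  · obtain ⟨u, v, e⟩ := M.cen c
    obtain ⟨π, hπ⟩ := M.rt_one
    have h1 := M.st (algebraMap C A c)
    rw [← cstar, h, e] at h1
    have h2 : M.j (algebraMap C A c) = u • M.j 1 := by
      rw [e, map_one, show algebraMap K (Mn n K) v = (algebraMap K (Mn n K) u)ᵀ from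
        congrArg Prod.snd h1, Algebra.algebraMap_eq_smul_one, transpose_smul, transpose_one]
      rfl
    exact ⟨π u, M.cext (by rw [← hπ (algebraMap C A c), h2, rt_smul,
      ← Algebra.algebraMap_eq_smul_one, ← IsScalarTower.algebraMap_apply])⟩
  · rw [cstar, ← IsScalarTower.algebraMap_apply, Algebra.algebraMap_eq_smul_one, M.stsm, star_one]

variable (C)

theorem star_ne : ∃ c : C, star c ≠ c := by
  by_contra! h
  have := M.rt_zero (y := P011LB.st (1, 0) - (1, 0)) fun π => by
    obtain ⟨c, hc⟩ := (Algebra.IsCentral.mem_center_iff C).1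
      (Subalgebra.mem_center_iff.2 fun a => by
        rw [← M.rt_left π a (1, 0), ← rt_right]
        exact congrArg _ (Prod.ext (by simp) (by simp)))
    rw [map_sub, rt_st, hc, ← cstar, h, sub_self]
  simpa [P011LB.st] using congrArg Prod.fst this

theorem rank : Module.finrank C A = n ^ 2 := by
  obtain ⟨z, hz⟩ := M.star_ne C
  have h1 := Module.finrank_mul_finrank k C A
  rw [finrank_two M.fixed hz, ← Module.finrank_baseChange (R := K) (S := k),
    (AlgEquiv.ofBijective _ M.bij).toLinearEquiv.finrank_eq, Module.finrank_prod,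
    Module.finrank_matrix, Fintype.card_fin, Module.finrank_self] at h1
  nlinarith

/-- the embedding of the centre -/
noncomputable def kap : C →ₐ[k] K where
  toFun c := (M.j (algebraMap C A c)).1 0 0
  map_one' := by simp
  map_mul' c d := by
    obtain ⟨u, v, e⟩ := M.cen c
    rw [map_mul, map_mul, e, Prod.fst_mul, ← Algebra.smul_def]
    simp [algebraMap_matrix_apply]
  map_zero' := by simp
  map_add' c d := by simp
  commutes' r := by
    rw [← IsScalarTower.algebraMap_apply, AlgHom.commutes]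
    simp [algebraMap_matrix_apply]

theorem kap_eq (c : C) : (M.j (algebraMap C A c)).1 = algebraMap K (Mn n K) (M.kap C c) := by
  obtain ⟨u, v, e⟩ := M.cen c
  show _ = algebraMap K (Mn n K) ((M.j (algebraMap C A c)).1 0 0)
  rw [e]
  simp [algebraMap_matrix_apply]

/-- the splitting -/
noncomputable def sp [Algebra C K] (h : ∀ c, algebraMap C K c = M.kap C c) : A →ₐ[C] Mn n K :=
  { ((AlgHom.fst k _ _).comp M.j).toRingHom with
    commutes' := fun c => (M.kap_eq C c).trans (by rw [← h, ← IsScalarTower.algebraMap_apply]) }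

end Mt

end Vale.Agent.P011UGB1
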